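import Vale.Agent.P295.Five

theorem Vale.Agent.Results.P295.FiveVariables.result :
    ∃ f : MvPolynomial (Fin 5) ℂ,
      (∃ φ : MvPolynomial (Fin 6) ℂ ≃ₐ[ℂ] MvPolynomial (Fin 6) ℂ,
        φ (MvPolynomial.rename Fin.castSucc f) = MvPolynomial.X 0) ∧
      ¬ ∃ ψ : MvPolynomial (Fin 5) ℂ ≃ₐ[ℂ] MvPolynomial (Fin 5) ℂ, ψ f = MvPolynomial.X 0 :=
  Vale.Agent.P295.of_noncancel Vale.Agent.P293.stableIso Vale.Agent.P293.main.2.2
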