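import Vale.Agent.P295.Main4

theorem Vale.Agent.Results.P295.FourVariables.result :
    ∃ f : MvPolynomial (Fin 4) ℂ,
      (∃ φ : MvPolynomial (Fin 5) ℂ ≃ₐ[ℂ] MvPolynomial (Fin 5) ℂ,
        φ (MvPolynomial.rename Fin.castSucc f) = MvPolynomial.X 0) ∧
      ¬ ∃ ψ : MvPolynomial (Fin 4) ℂ ≃ₐ[ℂ] MvPolynomial (Fin 4) ℂ, ψ f = MvPolynomial.X 0 :=
  ⟨_, Vale.Agent.P295.main4⟩
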